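import Vale.Agent.Lib.P074.Third.Defs
import Vale.Agent.Lib.P074.helper81.AdmOfReal

/-!
# P074: assembly of the real-valued `1/3`-stability estimate from the pieces (job T12)
-/

namespace Vale.Agent.Lib.P074

open MeasureTheory ENNReal

namespace Real3

variable {d : ℕ}

/-- A finite convex combination of Dirac masses is a probability measure. -/
lemma isProbabilityMeasure_disc {n : ℕ} (m : Fin (n + 1) → ℝ) (y : Fin (n + 1) → E d)
    (hm : ∀ k, 0 < m k) (hsum : ∑ k, m k = 1) :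
    IsProbabilityMeasure (∑ k, ENNReal.ofReal (m k) • Measure.dirac (y k)) := by
  refine ⟨?_⟩
  rw [Measure.coe_finsetSum, Finset.sum_apply]
  simp only [Measure.smul_apply, measure_univ, smul_eq_mul, mul_one]
  rw [← ENNReal.ofReal_sum_of_nonneg (fun k _ => (hm k).le), hsum, ENNReal.ofReal_one]

/-- A finite convex combination of Dirac masses at points of `Y` gives full mass to `Y`. -/
lemma disc_apply_eq_one {n : ℕ} (m : Fin (n + 1) → ℝ) (y : Fin (n + 1) → E d)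
    (hm : ∀ k, 0 < m k) (hsum : ∑ k, m k = 1) {Y : Set (E d)} (hy : ∀ k, y k ∈ Y) :
    (∑ k, ENNReal.ofReal (m k) • Measure.dirac (y k)) Y = 1 := by
  rw [Measure.coe_finsetSum, Finset.sum_apply]
  have : ∀ k, (ENNReal.ofReal (m k) • Measure.dirac (y k)) Y = ENNReal.ofReal (m k) := by
    intro k
    rw [Measure.smul_apply, Measure.dirac_apply_of_mem (hy k), smul_eq_mul, mul_one]
  simp only [this]
  rw [← ENNReal.ofReal_sum_of_nonneg (fun k _ => (hm k).le), hsum, ENNReal.ofReal_one]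

/-- Integrability of the squared distance of two a.e. bounded measurable maps. -/
lemma integrable_sq_sub {ρ : Measure (E d)} [IsFiniteMeasure ρ] {F G : E d → E d}
    (hF : Measurable F) (hG : Measurable G) {B : ℝ} (hFb : ∀ᵐ x ∂ρ, ‖F x‖ ≤ B)
    (hGb : ∀ᵐ x ∂ρ, ‖G x‖ ≤ B) : Integrable (fun x => ‖F x - G x‖ ^ 2) ρ := by
  have hmeas : Measurable (fun x => ‖F x - G x‖ ^ 2) := ((hF.sub hG).norm).pow_const 2
  refine Integrable.of_bound hmeas.aestronglyMeasurable ((2 * B) ^ 2) ?_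
  filter_upwards [hFb, hGb] with x h1 h2
  have h3 : ‖F x - G x‖ ≤ 2 * B := (norm_sub_le _ _).trans (by linarith)
  rw [Real.norm_of_nonneg (by positivity)]
  exact pow_le_pow_left₀ (norm_nonneg _) h3 2

/-- The elementary three-term inequality. -/
lemma three_term (a s t u : E d) :
    ‖a - s‖ ^ 2 ≤ 3 * (‖a - t‖ ^ 2 + ‖t - u‖ ^ 2 + ‖s - u‖ ^ 2) := by
  have h1 : ‖a - s‖ ≤ ‖a - t‖ + ‖t - u‖ + ‖s - u‖ := by
    have : a - s = (a - t) + (t - u) - (s - u) := by abel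
    rw [this]
    calc ‖(a - t) + (t - u) - (s - u)‖ ≤ ‖(a - t) + (t - u)‖ + ‖s - u‖ := norm_sub_le _ _
      _ ≤ ‖a - t‖ + ‖t - u‖ + ‖s - u‖ := by
        have := norm_add_le (a - t) (t - u)
        linarith
  have h0 : 0 ≤ ‖a - s‖ := norm_nonneg _
  have ha : 0 ≤ ‖a - t‖ := norm_nonneg _
  have hb : 0 ≤ ‖t - u‖ := norm_nonneg _
  have hc : 0 ≤ ‖s - u‖ := norm_nonneg _
  nlinarith [sq_nonneg (‖a - t‖ - ‖t - u‖), sq_nonneg (‖a - t‖ - ‖s - u‖),
    sq_nonneg (‖t - u‖ - ‖s - u‖), pow_le_pow_left₀ h0 h1 2]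

end Real3

open Real3 in
/-- Assembly of the real-valued `1/3`-stability estimate from: the estimate for power-diagram
maps, existence of power diagrams with prescribed masses, optimality of power-diagram maps,
the discretization of a coupling, and the `1/4`-type real estimate (used for the
approximation error). -/
theorem real3_of_pieces (d : ℕ) (hdisc : DiscStatement d) (hex : ExStatement d)
    (hopt : OptStatement d) (happ : ApproxStatement d) (hreal : RealStatement d) :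
    Real3Statement d := by
  intro K hK hKc hKi Y hY hYne
  obtain ⟨R, hR⟩ : ∃ R : ℝ, Y ⊆ Metric.closedBall 0 R := hY.isBounded.subset_closedBall 0
  have hR0 : 0 ≤ R := by
    obtain ⟨z, hz⟩ := hYne
    have := hR hz
    rw [Metric.mem_closedBall] at this
    exact dist_nonneg.trans this
  have hY'c : IsCompact (Metric.closedBall (0 : E d) (R + 1)) := isCompact_closedBall 0 (R + 1)
  have hY'ne : (Metric.closedBall (0 : E d) (R + 1)).Nonempty :=
    ⟨0, Metric.mem_closedBall_self (by linarith)⟩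
  have hYY' : Y ⊆ Metric.closedBall (0 : E d) (R + 1) :=
    hR.trans (Metric.closedBall_subset_closedBall (by linarith))
  obtain ⟨CD, hCD, hD⟩ := hdisc K hK hKc hKi (R + 1) (by linarith)
  obtain ⟨CQ, hCQ, hQ⟩ := hreal K hK hKc hKi _ hY'c hY'ne
  have hprob : IsProbabilityMeasure (unif K) := isProbabilityMeasure_unif' hK hKi
  refine ⟨3 * CD, by positivity, ?_⟩
  intro μ ν hμ hν hμY hνY T S hT hS π hπ1 hπ2
  have hc0 : 0 ≤ ∫ p, ‖p.1 - p.2‖ ^ 2 ∂π := integral_nonneg (fun p => by positivity)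
  have hμY' : μ (Metric.closedBall (0 : E d) (R + 1)) = 1 :=
    le_antisymm prob_le_one (hμY ▸ measure_mono hYY')
  have hνY' : ν (Metric.closedBall (0 : E d) (R + 1)) = 1 :=
    le_antisymm prob_le_one (hνY ▸ measure_mono hYY')
  have aT : ∀ᵐ x ∂(unif K), ‖T x‖ ≤ R + 1 :=
    ae_norm_le_of_map' hT.1 hT.2.1 hY'c hμY' (subset_refl _)
  have aS : ∀ᵐ x ∂(unif K), ‖S x‖ ≤ R + 1 :=
    ae_norm_le_of_map' hS.1 hS.2.1 hY'c hνY' (subset_refl _)
  have key : ∀ ε : ℝ, 0 < ε → ε ≤ 1 → ∫ x, ‖T x - S x‖ ^ 2 ∂(unif K)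
      ≤ 6 * CQ * Real.sqrt ε + 3 * CD * ((∫ p, ‖p.1 - p.2‖ ^ 2 ∂π) + ε) ^ (1 / 3 : ℝ) := by
    intro ε hε hε1
    obtain ⟨n, m, y, y', hm, hmsum, hyinj, hy'inj, hyY, hy'Y, ⟨π₁, hπ₁1, hπ₁2, hπ₁c⟩,
      ⟨π₂, hπ₂1, hπ₂2, hπ₂c⟩, hcost⟩ := happ Y hY hYne μ ν hμ hν hμY hνY π hπ1 hπ2 ε hε
    have hyR : ∀ k, ‖y k‖ ≤ R + 1 := by
      intro k
      obtain ⟨z, hz, hzk⟩ := hyY k
      have hzR : ‖z‖ ≤ R := by simpa using hR hz
      calc ‖y k‖ = ‖(y k - z) + z‖ := by rw [sub_add_cancel]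
        _ ≤ ‖y k - z‖ + ‖z‖ := norm_add_le _ _
        _ ≤ R + 1 := by linarith
    have hy'R : ∀ k, ‖y' k‖ ≤ R + 1 := by
      intro k
      obtain ⟨z, hz, hzk⟩ := hy'Y k
      have hzR : ‖z‖ ≤ R := by simpa using hR hz
      calc ‖y' k‖ = ‖(y' k - z) + z‖ := by rw [sub_add_cancel]
        _ ≤ ‖y' k - z‖ + ‖z‖ := norm_add_le _ _
        _ ≤ R + 1 := by linarith
    obtain ⟨ψ, hψ⟩ := hex K hK hKc hKi n y hyinj m hm hmsum
    obtain ⟨ψ', hψ'⟩ := hex K hK hKc hKi n y' hy'inj m hm hmsum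
    have hoT := hopt K hK hKc hKi n y ψ hyinj
    have hoS := hopt K hK hKc hKi n y' ψ' hy'inj
    simp only [hψ] at hoT
    simp only [hψ'] at hoS
    have hμε : IsProbabilityMeasure (∑ k, ENNReal.ofReal (m k) • Measure.dirac (y k)) :=
      isProbabilityMeasure_disc m y hm hmsum
    have hνε : IsProbabilityMeasure (∑ k, ENNReal.ofReal (m k) • Measure.dirac (y' k)) :=
      isProbabilityMeasure_disc m y' hm hmsum
    have hμεY' : (∑ k, ENNReal.ofReal (m k) • Measure.dirac (y k))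
        (Metric.closedBall (0 : E d) (R + 1)) = 1 :=
      disc_apply_eq_one m y hm hmsum (fun k => by simpa using hyR k)
    have hνεY' : (∑ k, ENNReal.ofReal (m k) • Measure.dirac (y' k))
        (Metric.closedBall (0 : E d) (R + 1)) = 1 :=
      disc_apply_eq_one m y' hm hmsum (fun k => by simpa using hy'R k)
    have h1 := hQ μ _ hμ hμε hμY' hμεY' T (pmap y ψ) hT hoT π₁ hπ₁1 hπ₁2
    have h2 := hQ ν _ hν hνε hνY' hνεY' S (pmap y' ψ') hS hoS π₂ hπ₂1 hπ₂2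
    have h3 := hD n y y' ψ ψ' hyinj hy'inj hyR hy'R (fun k => by rw [hψ]; exact hm k)
      (fun k => by rw [hψ, hψ'])
    simp only [hψ] at h3
    have h1' : ∫ x, ‖T x - pmap y ψ x‖ ^ 2 ∂(unif K) ≤ CQ * Real.sqrt ε :=
      h1.trans (mul_le_mul_of_nonneg_left (Real.sqrt_le_sqrt hπ₁c) hCQ)
    have h2' : ∫ x, ‖S x - pmap y' ψ' x‖ ^ 2 ∂(unif K) ≤ CQ * Real.sqrt ε :=
      h2.trans (mul_le_mul_of_nonneg_left (Real.sqrt_le_sqrt hπ₂c) hCQ)
    have hsum0 : 0 ≤ ∑ k, m k * ‖y' k - y k‖ ^ 2 :=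
      Finset.sum_nonneg (fun k _ => mul_nonneg (hm k).le (by positivity))
    have h3' : ∫ x, ‖pmap y ψ x - pmap y' ψ' x‖ ^ 2 ∂(unif K)
        ≤ CD * ((∫ p, ‖p.1 - p.2‖ ^ 2 ∂π) + ε) ^ (1 / 3 : ℝ) :=
      h3.trans (mul_le_mul_of_nonneg_left
        (Real.rpow_le_rpow hsum0 hcost (by norm_num)) hCD)
    have aTε : ∀ᵐ x ∂(unif K), ‖pmap y ψ x‖ ≤ R + 1 :=
      Filter.Eventually.of_forall (fun x => hyR _)
    have aSε : ∀ᵐ x ∂(unif K), ‖pmap y' ψ' x‖ ≤ R + 1 :=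
      Filter.Eventually.of_forall (fun x => hy'R _)
    have i1 : Integrable (fun x => ‖T x - pmap y ψ x‖ ^ 2) (unif K) :=
      integrable_sq_sub hT.1 hoT.1 aT aTε
    have i2 : Integrable (fun x => ‖pmap y ψ x - pmap y' ψ' x‖ ^ 2) (unif K) :=
      integrable_sq_sub hoT.1 hoS.1 aTε aSε
    have i3 : Integrable (fun x => ‖S x - pmap y' ψ' x‖ ^ 2) (unif K) :=
      integrable_sq_sub hS.1 hoS.1 aS aSε
    have i0 : Integrable (fun x => ‖T x - S x‖ ^ 2) (unif K) :=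
      integrable_sq_sub hT.1 hS.1 aT aS
    have hmono : ∫ x, ‖T x - S x‖ ^ 2 ∂(unif K)
        ≤ ∫ x, 3 * (‖T x - pmap y ψ x‖ ^ 2 + ‖pmap y ψ x - pmap y' ψ' x‖ ^ 2
          + ‖S x - pmap y' ψ' x‖ ^ 2) ∂(unif K) :=
      integral_mono i0 (((i1.add i2).add i3).const_mul 3)
        (fun x => three_term (T x) (S x) (pmap y ψ x) (pmap y' ψ' x))
    have hsplit : ∫ x, 3 * (‖T x - pmap y ψ x‖ ^ 2 + ‖pmap y ψ x - pmap y' ψ' x‖ ^ 2
          + ‖S x - pmap y' ψ' x‖ ^ 2) ∂(unif K)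
        = 3 * ((∫ x, ‖T x - pmap y ψ x‖ ^ 2 ∂(unif K))
          + (∫ x, ‖pmap y ψ x - pmap y' ψ' x‖ ^ 2 ∂(unif K))
          + ∫ x, ‖S x - pmap y' ψ' x‖ ^ 2 ∂(unif K)) := by
      rw [integral_const_mul,
        integral_add (f := fun x => ‖T x - pmap y ψ x‖ ^ 2 + ‖pmap y ψ x - pmap y' ψ' x‖ ^ 2)
          (g := fun x => ‖S x - pmap y' ψ' x‖ ^ 2) (i1.add i2) i3,
        integral_add (f := fun x => ‖T x - pmap y ψ x‖ ^ 2)
          (g := fun x => ‖pmap y ψ x - pmap y' ψ' x‖ ^ 2) i1 i2]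
    rw [hsplit] at hmono
    linarith
  have hlim : Filter.Tendsto
      (fun ε : ℝ => 6 * CQ * Real.sqrt ε
        + 3 * CD * ((∫ p, ‖p.1 - p.2‖ ^ 2 ∂π) + ε) ^ (1 / 3 : ℝ))
      (nhdsWithin 0 (Set.Ioi 0))
      (nhds (3 * CD * (∫ p, ‖p.1 - p.2‖ ^ 2 ∂π) ^ (1 / 3 : ℝ))) := by
    have hcont : ContinuousAt (fun ε : ℝ => 6 * CQ * Real.sqrt ε
        + 3 * CD * ((∫ p, ‖p.1 - p.2‖ ^ 2 ∂π) + ε) ^ (1 / 3 : ℝ)) 0 := by
      have h1 : ContinuousAt (fun ε : ℝ => Real.sqrt ε) 0 := Real.continuous_sqrt.continuousAt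
      have h2 : ContinuousAt (fun ε : ℝ => ((∫ p, ‖p.1 - p.2‖ ^ 2 ∂π) + ε) ^ (1 / 3 : ℝ)) 0 := by
        have h3 : ContinuousAt (fun x : ℝ => x ^ (1 / 3 : ℝ)) ((∫ p, ‖p.1 - p.2‖ ^ 2 ∂π) + 0) :=
          Real.continuousAt_rpow_const _ _ (Or.inr (by norm_num))
        exact ContinuousAt.comp (f := fun ε : ℝ => (∫ p, ‖p.1 - p.2‖ ^ 2 ∂π) + ε) h3
          (continuousAt_const.add continuousAt_id)
      exact (continuousAt_const.mul h1).add (continuousAt_const.mul h2)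
    have h := hcont.tendsto
    simp only [Real.sqrt_zero, mul_zero, zero_add, add_zero] at h
    exact h.mono_left nhdsWithin_le_nhds
  refine ge_of_tendsto hlim ?_
  have hmem : Set.Ioc (0 : ℝ) 1 ∈ nhdsWithin (0 : ℝ) (Set.Ioi 0) :=
    Ioc_mem_nhdsGT (by norm_num)
  filter_upwards [hmem] with ε hε
  exact key ε hε.1 hε.2

end Vale.Agent.Lib.P074
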